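import Vale.Agent.P330.H241.Main
import Vale.Agent.P330.Stmt

/-!
Assembly of the padded reduction: End-of-Line is total, finitely many instances are patched, and
the polynomial time algorithms are given by lists of gates.
-/

namespace Vale.Agent.P330

open Vale.Agent.Lib.PolyTime

/-! ### End-of-Line is total -/

theorem BoolCircuit.IsCircuit.length_eval {C : BoolCircuit} {n : ℕ} (h : C.IsCircuit n)
    (x : List Bool) : (C.eval x).length = n := by
  unfold BoolCircuit.eval
  rw [List.length_map, h.1]

theorem EndOfLine.exists_solution (I : EndOfLine) : ∃ v, I.IsSolution v := by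
  by_contra hno
  have hP : ∀ v : List Bool, v.length = I.n → v ≠ List.replicate I.n false →
      I.P.eval (I.S.eval v) = v := by
    intro v h1 h2
    by_contra h3
    exact hno ⟨v, h1, h2, Or.inl h3⟩
  have hS : ∀ v : List Bool, v.length = I.n → v ≠ List.replicate I.n false →
      I.S.eval (I.P.eval v) = v := by
    intro v h1 h2
    by_contra h3
    exact hno ⟨v, h1, h2, Or.inr h3⟩
  let X : Type := {v : List Bool // v.length = I.n ∧ v ≠ List.replicate I.n false}
  have : Finite X := by
    have h1 : {l : List Bool | l.length = I.n}.Finite := List.finite_length_eq Bool I.n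
    exact (h1.subset fun v hv => hv.1).to_subtype
  let f : X → X := fun v => ⟨I.S.eval v.1, I.circuit_S.length_eval _, fun h => by
    have h1 := hP v.1 v.2.1 v.2.2
    rw [h, I.pred_zero] at h1
    exact v.2.2 h1.symm⟩
  have hinj : Function.Injective f := fun a b h => by
    have h1 : I.S.eval a.1 = I.S.eval b.1 := congrArg Subtype.val h
    refine Subtype.ext ?_
    rw [← hP a.1 a.2.1 a.2.2, ← hP b.1 b.2.1 b.2.2, h1]
  obtain ⟨u, hu⟩ := (Finite.injective_iff_surjective.1 hinj)
    ⟨I.S.eval (List.replicate I.n false), I.circuit_S.length_eval _, I.succ_zero⟩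
  have h1 : I.S.eval u.1 = I.S.eval (List.replicate I.n false) := congrArg Subtype.val hu
  have h2 := hP u.1 u.2.1 u.2.2
  rw [h1, I.pred_succ_zero] at h2
  exact u.2.2 h2.symm

/-- A solution. -/
noncomputable def EndOfLine.sol (I : EndOfLine) : List Bool := I.exists_solution.choose

theorem EndOfLine.isSolution_sol (I : EndOfLine) : I.IsSolution I.sol :=
  I.exists_solution.choose_spec

/-! ### The code of instances is injective -/

theorem bgateW_inj {g g' : BGate} (h : bgateW g = bgateW g') : g = g' := by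
  cases g <;> cases g' <;> simp only [bgateW] at h <;>
  · obtain ⟨h1, h⟩ := pairW_inj h
    obtain ⟨h2, h3⟩ := pairW_inj h
    have h1 := bits_inj h1
    have h2 := bits_inj h2
    have h3 := bits_inj h3
    first
    | omega
    | (subst h2; subst h3; rfl)
    | (subst h2; rfl)

theorem boolCircuitW_inj {C C' : BoolCircuit} (h : boolCircuitW C = boolCircuitW C') : C = C' := by
  obtain ⟨h1, h2⟩ := pairW_inj h
  have h3 : C.gates = C'.gates := listW_inj (fun a b => bgateW_inj) h1
  have h4 : C.outs = C'.outs := listW_inj (fun a b => bits_inj) h2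
  cases C
  cases C'
  simp only at h3 h4
  subst h3
  subst h4
  rfl

theorem eolW_inj {I I' : EndOfLine} (h : eolW I = eolW I') : I = I' := by
  obtain ⟨h1, h2⟩ := pairW_inj h
  obtain ⟨h3, h4⟩ := pairW_inj h2
  replace h1 := bits_inj h1
  replace h3 := boolCircuitW_inj h3
  replace h4 := boolCircuitW_inj h4
  clear h h2
  cases I
  cases I'
  simp only at h1 h3 h4
  subst h1
  subst h3
  subst h4
  rfl

/-- Solutions of small instances are computable in polynomial time. -/
theorem PT_patchSol (m : ℕ) :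
    PT ∅ (fun I : EndOfLine => Raw.mk (if (eolW I).length < m then I.sol else [])) := by
  classical
  let t : Word → Word := fun w => if h : ∃ I : EndOfLine, eolW I = w then h.choose.sol else []
  refine ⟨_, FP_patch m t (fun _ => []) (FP.const []), fun I => ?_⟩
  show (if (eolW I).length < m then t (eolW I) else []) =
    (if (eolW I).length < m then I.sol else [])
  split_ifs with h
  · have h3 : ∃ I' : EndOfLine, eolW I' = eolW I := ⟨I, rfl⟩
    simp only [t]
    rw [dif_pos h3, eolW_inj h3.choose_spec]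
  · rfl

/-! ### Padded instances -/

/-- The typed form of padded instances. -/
abbrev Pad : Type := EndOfLine × Un

theorem enc_pad (q : Pad) : enc q = padW (q.1, q.2.v) := by
  rw [enc_pair, pr_eq_pairW, enc_eol, enc_un]
  rfl

theorem enc_padAsg (q : Pad × List ℚ) : enc q = padAsgW ((q.1.1, q.1.2.v), q.2) := by
  rw [enc_pair, pr_eq_pairW, enc_pad, enc_listRat]
  rfl

/-- The condition on padded instances. -/
def Pad.Ok (k : ℕ) (q : Pad) : Prop := (eolW q.1).length ≤ Nat.log 2 q.2.v ^ k

instance (k : ℕ) (q : Pad) : Decidable (q.Ok k) := by unfold Pad.Ok; infer_instance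

/-- The list of gates makes sense. -/
structure WFNet (nodes : ℕ) (gates : List Gate) : Prop where
  gates_ne : gates ≠ []
  out_lt : ∀ g ∈ gates, g.out < nodes
  ins_lt : ∀ g ∈ gates, ∀ a ∈ g.ins, a < nodes
  out_nodup : (gates.map Gate.out).Nodup
  params_mem : ∀ g ∈ gates, ∀ α ∈ g.params, 0 ≤ α ∧ α ≤ 1

/-- The generalized circuit with the given nodes and gates. -/
def WFNet.toCircuit {nodes : ℕ} {gates : List Gate} (h : WFNet nodes gates) : GenCircuit :=
  ⟨nodes, gates, h.gates_ne, h.out_lt, h.ins_lt, h.out_nodup, h.params_mem⟩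

theorem size_sub_one (n : ℕ) : Nat.size n - 1 = Nat.log 2 n := by
  rcases Nat.eq_zero_or_pos n with rfl | h
  · simp
  · have h1 : n < 2 ^ Nat.size n := Nat.lt_size_self n
    have h2 : Nat.size n ≠ 0 := by
      intro h3
      rw [Nat.size_eq_zero] at h3
      omega
    have h3 : 2 ^ (Nat.size n - 1) ≤ n := by
      by_contra h4
      have h5 := Nat.size_le.2 (not_le.1 h4)
      omega
    symm
    refine (Nat.log_eq_iff (Or.inr ⟨by norm_num, by omega⟩)).2 ⟨h3, ?_⟩
    rw [Nat.sub_add_cancel (by omega)]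
    exact h1

theorem PT_log {A : Set Word} {α : Type*} [Enc α] {f : α → ℕ} (hf : PT A f) :
    PT A (fun a => Nat.log 2 (f a)) :=
  (hf.natSize.sub (PT.const 1)).congr fun _ => size_sub_one _

/-- The test for the padded instances on which the reduction has to work. -/
def guard (k t0 : ℕ) (q : Pad) : Bool := decide (t0 ≤ q.2.v) && decide (q.Ok k)

theorem guard_iff {k t0 : ℕ} {q : Pad} : guard k t0 q = true ↔ t0 ≤ q.2.v ∧ q.Ok k := by
  simp [guard]

theorem PT_guard (k t0 : ℕ) : PT ∅ (guard k t0) := by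
  have h1 : PT ∅ (fun q : Pad => decide (t0 ≤ q.2.v)) := PT.le (PT.const t0) (PT.unVal PT.snd')
  have h2 : PT ∅ (fun q : Pad => decide (esize q.1 ≤ Nat.log 2 q.2.v ^ k)) :=
    PT.le (PT.size PT.fst') ((PT_log (PT.unVal PT.snd')).powConst k)
  exact h1.and h2

/-- The assembly lemma: it is enough to have polynomial time algorithms `nodes`, `gates`, `dec`
which work on the padded instances with large `t`. -/
theorem paddedPCP_of {k : ℕ} {ε δ : ℚ} (hε : 0 < ε) (hε1 : ε < 1) (hδ : 0 < δ) (hδ1 : δ < 1)
    {p : Polynomial ℕ} (hp : 2 ≤ p.natDegree)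
    {nodes : Pad → ℕ} (hn : PT ∅ nodes) (hnb : PBd nodes)
    {gates : Pad → List Gate} (hg : PT ∅ gates)
    {dec : Pad × List ℚ → Raw} (hd : PT ∅ dec) (t0 : ℕ)
    (hwf : ∀ q : Pad, t0 ≤ q.2.v → q.Ok k → WFNet (nodes q) (gates q))
    (hacc : ∀ q : Pad, t0 ≤ q.2.v → q.Ok k → ∀ h : WFNet (nodes q) (gates q),
      ∃ x, Acceptable ε δ p h.toCircuit x)
    (hsound : ∀ q : Pad, t0 ≤ q.2.v → q.Ok k → ∀ h : WFNet (nodes q) (gates q),
      ∀ x, Acceptable ε δ p h.toCircuit x → q.1.IsSolution (dec (q, x)).w) :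
    PaddedPCP k := by
  classical
  obtain ⟨m0, hm0⟩ := Filter.eventually_atTop.1 (eventually_of_degree hp 6)
  -- the reduction
  have hwf' : ∀ q : Pad, guard k t0 q = true → WFNet (nodes q) (gates q) := fun q h =>
    hwf q (guard_iff.1 h).1 (guard_iff.1 h).2
  let R : Pad → GenCircuit := fun q =>
    if h : guard k t0 q = true then (hwf' q h).toCircuit else oneGate m0
  have hR : PT ∅ R := by
    have h1 : PT ∅ (fun q : Pad => bif guard k t0 q then (Un.mk (nodes q), gates q)
        else (Un.mk (m0 + 1), [Gate.const 0 0])) :=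
      PT.cond (PT_guard k t0) ((PT.mkUn hn hnb).pair hg) (PT.const _)
    obtain ⟨g, h2, h3⟩ := h1
    refine ⟨g, h2, fun q => ?_⟩
    rw [h3]
    show enc (bif guard k t0 q then (Un.mk (nodes q), gates q)
        else (Un.mk (m0 + 1), [Gate.const 0 0])) = circuitW (R q)
    by_cases h : guard k t0 q = true
    · simp only [R]
      rw [dif_pos h, h, cond_true, enc_pair, pr_eq_pairW, enc_un, enc_listGate]
      rfl
    · simp only [R]
      rw [dif_neg h, Bool.eq_false_iff.2 h, cond_false, enc_pair, pr_eq_pairW, enc_un,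
        enc_listGate]
      rfl
  let m : ℕ := Nat.log 2 t0 ^ k + 1
  let D : Pad × List ℚ → Raw := fun q =>
    bif guard k t0 q.1 then dec q
    else Raw.mk (if (eolW q.1.1).length < m then q.1.1.sol else [])
  have hD : PT ∅ D :=
    PT.cond ((PT_guard k t0).comp PT.fst') hd ((PT_patchSol m).comp PT.fst'.fst)
  refine ⟨ε, δ, p, fun q => R (q.1, Un.mk q.2), fun q => (D ((q.1.1, Un.mk q.1.2), q.2)).w,
    hε, hε1, hδ, hδ1, ?_, ?_, fun I t ht => ?_⟩
  · obtain ⟨g, h1, h2⟩ := hR
    refine polyTime_iff.2 ⟨g, h1, fun q => ?_⟩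
    have h3 := h2 (q.1, Un.mk q.2)
    rw [enc_pad] at h3
    exact h3
  · obtain ⟨g, h1, h2⟩ := hD
    refine polyTime_iff.2 ⟨g, h1, fun q => ?_⟩
    have h3 := h2 ((q.1.1, Un.mk q.1.2), q.2)
    rw [enc_padAsg] at h3
    exact h3
  · have hok : Pad.Ok k (I, Un.mk t) := ht
    by_cases h : t0 ≤ t
    · have hg1 : guard k t0 (I, Un.mk t) = true := guard_iff.2 ⟨h, ht⟩
      have hR1 : R (I, Un.mk t) = (hwf' _ hg1).toCircuit := by
        simp only [R]
        rw [dif_pos hg1]
      have hD1 : ∀ x, D ((I, Un.mk t), x) = dec ((I, Un.mk t), x) := fun x => by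
        simp only [D]
        rw [hg1, cond_true]
      show (∃ x, Acceptable ε δ p (R (I, Un.mk t)) x) ∧
        ∀ x, Acceptable ε δ p (R (I, Un.mk t)) x → I.IsSolution (D ((I, Un.mk t), x)).w
      rw [hR1]
      refine ⟨hacc _ h hok _, fun x hx => ?_⟩
      rw [hD1]
      exact hsound _ h hok _ x hx
    · have hg1 : ¬ guard k t0 (I, Un.mk t) = true := fun h1 => h (guard_iff.1 h1).1
      have hR1 : R (I, Un.mk t) = oneGate m0 := by
        simp only [R]
        rw [dif_neg hg1]
      show (∃ x, Acceptable ε δ p (R (I, Un.mk t)) x) ∧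
        ∀ x, Acceptable ε δ p (R (I, Un.mk t)) x → I.IsSolution (D ((I, Un.mk t), x)).w
      rw [hR1]
      refine ⟨⟨_, acceptable_oneGate (by exact_mod_cast hε) (by exact_mod_cast hδ) le_rfl hm0⟩,
        fun x _ => ?_⟩
      have hD1 : D ((I, Un.mk t), x) = Raw.mk I.sol := by
        simp only [D]
        rw [Bool.eq_false_iff.2 hg1, cond_false]
        have h2 : (eolW I).length < m := by
          refine Nat.lt_succ_of_le (ht.trans ?_)
          exact Nat.pow_le_pow_left (Nat.log_mono_right (by omega)) k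
        rw [if_pos h2]
      rw [hD1]
      exact I.isSolution_sol

end Vale.Agent.P330
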