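import Mathlib
import Vale.Agent.Lib.PCP.MGG

/-!
Resolvent averaging: a cyclic network `w = (1 - l) A w + l b` on an expander, in which a small
fraction of the nodes is wrong and the others have small errors, computes the average of `b` at most
nodes.
-/

namespace Vale.Agent.P330.H855

open Finset

noncomputable section

variable {V : Type*} [Fintype V]

/-- the mean -/
def mean (f : V → ℝ) : ℝ := (∑ z, f z) / Fintype.card V

theorem card_mul_mean [Nonempty V] (f : V → ℝ) : (Fintype.card V : ℝ) * mean f = ∑ z, f z := by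
  have h : (Fintype.card V : ℝ) ≠ 0 := by exact_mod_cast Fintype.card_ne_zero
  unfold mean
  field_simp

theorem sum_sub_mean [Nonempty V] (f : V → ℝ) : ∑ z, (f z - mean f) = 0 := by
  rw [Finset.sum_sub_distrib, Finset.sum_const, card_univ, nsmul_eq_mul, card_mul_mean, sub_self]

theorem mean_sub (f g : V → ℝ) : mean (fun z => f z - g z) = mean f - mean g := by
  unfold mean
  rw [Finset.sum_sub_distrib, sub_div]

/-- The average over the neighbours. -/
def avg {J : Type*} [Fintype J] (s : J → V ≃ V) (f : V → ℝ) (z : V) : ℝ :=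
  (∑ j, f (s j z)) / Fintype.card J

/-- The gap of a family of permutations. -/
def Gap {J : Type*} [Fintype J] (s : J → V ≃ V) (ρ : ℝ) : Prop :=
  ∀ f : V → ℝ, ∑ z, f z = 0 → |∑ z, f z * avg s f z| ≤ ρ * ∑ z, f z ^ 2

theorem sum_avg {J : Type*} [Fintype J] [Nonempty J] (s : J → V ≃ V) (f : V → ℝ) :
    ∑ z, avg s f z = ∑ z, f z := by
  unfold avg
  rw [← Finset.sum_div, Finset.sum_comm]
  have h : ∀ j ∈ (univ : Finset J), ∑ z, f (s j z) = ∑ z, f z := fun j _ =>
    Equiv.sum_comp (s j) f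
  rw [Finset.sum_congr rfl h, Finset.sum_const, card_univ, nsmul_eq_mul]
  have : (Fintype.card J : ℝ) ≠ 0 := by exact_mod_cast Fintype.card_ne_zero
  field_simp

section

variable {J : Type*} [Fintype J] [Nonempty J] {s : J → V ≃ V} {ρ l : ℝ} {w b e : V → ℝ}

/-- The mean of the solution. -/
theorem mean_resolvent (hl : 0 < l)
    (h : ∀ z, w z = (1 - l) * avg s w z + l * b z + e z) :
    mean w - mean b = mean e / l := by
  have h1 : ∑ z, w z = (1 - l) * ∑ z, w z + l * ∑ z, b z + ∑ z, e z := by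
    calc ∑ z, w z = ∑ z, ((1 - l) * avg s w z + l * b z + e z) :=
          Finset.sum_congr rfl fun z _ => h z
      _ = (1 - l) * ∑ z, avg s w z + l * ∑ z, b z + ∑ z, e z := by
          rw [Finset.sum_add_distrib, Finset.sum_add_distrib, Finset.mul_sum, Finset.mul_sum]
      _ = _ := by rw [sum_avg]
  have h2 : ∑ z, w z - ∑ z, b z = (∑ z, e z) / l := by
    rw [eq_div_iff hl.ne']
    linarith
  unfold mean
  rw [← sub_div, h2, div_right_comm]

/-- The fluctuations of the solution. -/
theorem var_resolvent [Nonempty V] (hs : Gap s ρ) (hρ : ρ < 1) (hρ0 : 0 ≤ ρ)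
    (hl : 0 ≤ l) (hl1 : l ≤ 1)
    (h : ∀ z, w z = (1 - l) * avg s w z + l * b z + e z) :
    √(∑ z, (w z - mean w) ^ 2) ≤ (l * √(∑ z, b z ^ 2) + √(∑ z, e z ^ 2)) / (1 - ρ) := by
  set f : V → ℝ := fun z => w z - mean w with hf
  have hf0 : ∑ z, f z = 0 := sum_sub_mean w
  have hdR : (Fintype.card J : ℝ) ≠ 0 := by exact_mod_cast Fintype.card_ne_zero
  have hfe : ∀ z, f z = (1 - l) * avg s f z + l * (b z - mean w) + e z := fun z => by
    have e1 : avg s f z = avg s w z - mean w := by
      unfold avg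
      rw [hf]
      simp only [Finset.sum_sub_distrib, Finset.sum_const, card_univ, nsmul_eq_mul]
      field_simp
    rw [e1, hf]
    simp only
    rw [h z]
    ring
  have h1 : ∑ z, f z ^ 2 = (1 - l) * ∑ z, f z * avg s f z + l * ∑ z, f z * b z +
      ∑ z, f z * e z := by
    calc ∑ z, f z ^ 2 = ∑ z, (((1 - l) * (f z * avg s f z) + l * (f z * b z)) +
          f z * e z - l * mean w * f z) := by
            refine Finset.sum_congr rfl fun z _ => ?_
            calc f z ^ 2 = f z * f z := sq _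
              _ = f z * ((1 - l) * avg s f z + l * (b z - mean w) + e z) := by
                  rw [← hfe z]
              _ = _ := by ring
      _ = _ := by
            rw [Finset.sum_sub_distrib, Finset.sum_add_distrib, Finset.sum_add_distrib,
              ← Finset.mul_sum, ← Finset.mul_sum, ← Finset.mul_sum, hf0]
            ring
  set S : ℝ := ∑ z, f z ^ 2 with hS
  have hS0 : 0 ≤ S := Finset.sum_nonneg fun z _ => sq_nonneg _
  have h2 : ∑ z, f z * avg s f z ≤ ρ * S := (le_abs_self _).trans (hs f hf0)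
  have h3 : ∑ z, f z * b z ≤ √S * √(∑ z, b z ^ 2) := Real.sum_mul_le_sqrt_mul_sqrt _ _ _
  have h4 : ∑ z, f z * e z ≤ √S * √(∑ z, e z ^ 2) := Real.sum_mul_le_sqrt_mul_sqrt _ _ _
  have h5 : S ≤ ρ * S + √S * (l * √(∑ z, b z ^ 2) + √(∑ z, e z ^ 2)) := by
    have e1 : (1 - l) * ∑ z, f z * avg s f z ≤ ρ * S := by
      calc (1 - l) * ∑ z, f z * avg s f z ≤ (1 - l) * (ρ * S) :=
            mul_le_mul_of_nonneg_left h2 (by linarith)
        _ ≤ 1 * (ρ * S) := mul_le_mul_of_nonneg_right (by linarith) (by positivity)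
        _ = ρ * S := one_mul _
    have e2 := mul_le_mul_of_nonneg_left h3 hl
    linarith
  have h6 : √S * √S = S := Real.mul_self_sqrt hS0
  rw [le_div_iff₀ (by linarith)]
  rcases (Real.sqrt_nonneg S).eq_or_lt with h0 | h0
  · rw [← h0, zero_mul]
    positivity
  · have h7 : √S * (√S * (1 - ρ)) ≤ √S * (l * √(∑ z, b z ^ 2) + √(∑ z, e z ^ 2)) := by
      have : √S * (√S * (1 - ρ)) = S - ρ * S := by rw [← mul_assoc, h6]; ring
      linarith
    exact le_of_mul_le_mul_left h7 h0

/-- **Resolvent averaging.**  If all but `δ |V|` nodes are correct up to `ε`, then all but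
`C (l² + δ + ε²) / η² |V|` nodes hold the average of `b` up to `η`. -/
theorem resolvent [Nonempty V] [DecidableEq V] (hs : Gap s ρ) (hρ : ρ < 1)
    (hρ0 : 0 ≤ ρ) (hl : 0 < l) (hl1 : l ≤ 1) {δ ε η : ℝ} (hε : 0 ≤ ε)
    (hw : ∀ z, 0 ≤ w z ∧ w z ≤ 1) (hb : ∀ z, 0 ≤ b z ∧ b z ≤ 1) (B : Finset V)
    (hB : (B.card : ℝ) ≤ δ * Fintype.card V)
    (h : ∀ z, z ∉ B → |w z - ((1 - l) * avg s w z + l * b z)| ≤ ε)
    (hη : 2 * (δ + ε) ≤ η * l) (hη0 : 0 < η) :
    ((univ.filter fun z => η < |w z - mean b|).card : ℝ) ≤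
      8 / (1 - ρ) ^ 2 * ((l ^ 2 + δ + ε ^ 2) / η ^ 2) * Fintype.card V := by
  have hdR : (0 : ℝ) < Fintype.card J := by exact_mod_cast Fintype.card_pos
  set N : ℝ := (Fintype.card V : ℝ) with hN
  have hN0 : 0 < N := by rw [hN]; exact_mod_cast Fintype.card_pos
  have hδ0 : 0 ≤ δ := by
    have : (0 : ℝ) ≤ B.card := Nat.cast_nonneg _
    by_contra hcon
    push Not at hcon
    nlinarith
  set e : V → ℝ := fun z => w z - ((1 - l) * avg s w z + l * b z) with he
  have hE : ∀ z, w z = (1 - l) * avg s w z + l * b z + e z := fun z => by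
    rw [he]; ring
  have he1 : ∀ z, |e z| ≤ 1 := fun z => by
    have a1 : 0 ≤ avg s w z := div_nonneg (Finset.sum_nonneg fun j _ => (hw _).1) hdR.le
    have a2 : avg s w z ≤ 1 := by
      unfold avg
      rw [div_le_one hdR]
      calc ∑ j, w (s j z) ≤ ∑ _j : J, (1 : ℝ) := Finset.sum_le_sum fun j _ => (hw _).2
        _ = Fintype.card J := by simp
    have a3 := hw z
    have a4 := hb z
    rw [he, abs_le]
    constructor
    · nlinarith
    · nlinarith
  have hpt1 : ∀ z, |e z| ≤ (if z ∈ B then 1 else 0) + ε := fun z => by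
    by_cases hz : z ∈ B
    · simp only [hz, if_true]; linarith [he1 z]
    · simp only [hz, if_false]; linarith [h z hz]
  have hpt2 : ∀ z, e z ^ 2 ≤ (if z ∈ B then 1 else 0) + ε ^ 2 := fun z => by
    rw [← sq_abs]
    by_cases hz : z ∈ B
    · simp only [hz, if_true]
      have := he1 z
      nlinarith [abs_nonneg (e z), sq_nonneg ε]
    · simp only [hz, if_false, zero_add]
      have := h z hz
      exact pow_le_pow_left₀ (abs_nonneg _) this 2
  have hcount : ∑ z, (if z ∈ B then (1 : ℝ) else 0) = B.card := by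
    rw [← Finset.sum_filter, Finset.sum_const, nsmul_eq_mul, mul_one]
    congr 2
    ext z
    simp
  have hs1 : ∑ z, |e z| ≤ (δ + ε) * N := by
    calc ∑ z, |e z| ≤ ∑ z, ((if z ∈ B then (1 : ℝ) else 0) + ε) := Finset.sum_le_sum fun z _ => hpt1 z
      _ = B.card + ε * N := by
          rw [Finset.sum_add_distrib, hcount, Finset.sum_const, card_univ, nsmul_eq_mul]
          ring
      _ ≤ _ := by linarith
  have hs2 : ∑ z, e z ^ 2 ≤ (δ + ε ^ 2) * N := by
    calc ∑ z, e z ^ 2 ≤ ∑ z, ((if z ∈ B then (1 : ℝ) else 0) + ε ^ 2) :=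
          Finset.sum_le_sum fun z _ => hpt2 z
      _ = B.card + ε ^ 2 * N := by
          rw [Finset.sum_add_distrib, hcount, Finset.sum_const, card_univ, nsmul_eq_mul]
          ring
      _ ≤ _ := by linarith
  -- the mean
  have hmean : |mean w - mean b| ≤ η / 2 := by
    rw [mean_resolvent hl hE, abs_div, abs_of_pos hl, div_le_iff₀ hl]
    have h1 : |mean e| ≤ δ + ε := by
      unfold mean
      rw [abs_div, abs_of_pos hN0, div_le_iff₀ hN0]
      exact (Finset.abs_sum_le_sum_abs _ _).trans hs1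
    linarith
  -- the variance
  have hb2 : ∑ z, b z ^ 2 ≤ N := by
    calc ∑ z, b z ^ 2 ≤ ∑ _z : V, (1 : ℝ) := Finset.sum_le_sum fun z _ => by
          have := hb z
          nlinarith
      _ = N := by simp [hN]
  have hvar := var_resolvent hs hρ hρ0 hl.le hl1 hE
  have hρ1 : 0 < 1 - ρ := by linarith
  set F : ℝ := ∑ z, (w z - mean w) ^ 2 with hF
  have hF0 : 0 ≤ F := Finset.sum_nonneg fun z _ => sq_nonneg _
  have hF1 : F ≤ 2 * (l ^ 2 + δ + ε ^ 2) / (1 - ρ) ^ 2 * N := by
    have h1 : F = √F ^ 2 := (Real.sq_sqrt hF0).symm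
    have h2 : √F ^ 2 ≤ ((l * √(∑ z, b z ^ 2) + √(∑ z, e z ^ 2)) / (1 - ρ)) ^ 2 :=
      pow_le_pow_left₀ (Real.sqrt_nonneg _) hvar 2
    have h3 : (l * √(∑ z, b z ^ 2) + √(∑ z, e z ^ 2)) ^ 2 ≤
        2 * (l ^ 2 * ∑ z, b z ^ 2) + 2 * ∑ z, e z ^ 2 := by
      have a1 : √(∑ z, b z ^ 2) ^ 2 = ∑ z, b z ^ 2 :=
        Real.sq_sqrt (Finset.sum_nonneg fun z _ => sq_nonneg _)
      have a2 : √(∑ z, e z ^ 2) ^ 2 = ∑ z, e z ^ 2 :=
        Real.sq_sqrt (Finset.sum_nonneg fun z _ => sq_nonneg _)
      nlinarith [sq_nonneg (l * √(∑ z, b z ^ 2) - √(∑ z, e z ^ 2))]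
    rw [h1]
    refine h2.trans ?_
    rw [div_pow, div_mul_eq_mul_div, div_le_div_iff_of_pos_right (by positivity)]
    have h4 : l ^ 2 * ∑ z, b z ^ 2 ≤ l ^ 2 * N := mul_le_mul_of_nonneg_left hb2 (sq_nonneg l)
    linarith
  -- Chebyshev
  have hch : (η / 2) ^ 2 * ((univ.filter fun z => η < |w z - mean b|).card : ℝ) ≤ F := by
    calc (η / 2) ^ 2 * ((univ.filter fun z => η < |w z - mean b|).card : ℝ)
        = ∑ _z ∈ univ.filter fun z => η < |w z - mean b|, (η / 2) ^ 2 := by
          rw [Finset.sum_const, nsmul_eq_mul]; ring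
      _ ≤ ∑ z ∈ univ.filter fun z => η < |w z - mean b|, (w z - mean w) ^ 2 := by
          refine Finset.sum_le_sum fun z hz => ?_
          have h1 : η < |w z - mean b| := (Finset.mem_filter.1 hz).2
          have h2 : |w z - mean b| ≤ |w z - mean w| + |mean w - mean b| := by
            have := abs_add_le (w z - mean w) (mean w - mean b)
            rwa [sub_add_sub_cancel] at this
          rw [← sq_abs (w z - mean w)]
          exact pow_le_pow_left₀ (by linarith) (by linarith) 2
      _ ≤ F := Finset.sum_le_sum_of_subset_of_nonneg (Finset.filter_subset _ _)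
          fun z _ _ => sq_nonneg _
  have hfin : ((univ.filter fun z => η < |w z - mean b|).card : ℝ) ≤ F / (η / 2) ^ 2 := by
    rw [le_div_iff₀ (by positivity)]
    linarith
  refine hfin.trans ?_
  calc F / (η / 2) ^ 2 ≤ (2 * (l ^ 2 + δ + ε ^ 2) / (1 - ρ) ^ 2 * N) / (η / 2) ^ 2 := by gcongr
    _ = _ := by
        field_simp
        ring

end

/-! ### Averaging over one coordinate of a product -/

/-- **Resolvent averaging in a product**: averaging over the first coordinate, for every value of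
the second one; `δ'` is the threshold of the fraction of wrong nodes of a fibre. -/
theorem resolvent_prod {Y : Type*} [Fintype Y] [DecidableEq Y] [Nonempty V] [DecidableEq V]
    {J : Type*} [Fintype J] [Nonempty J] {s : J → V ≃ V} {ρ l : ℝ} {w b : V → Y → ℝ}
    (hs : Gap s ρ) (hρ : ρ < 1) (hρ0 : 0 ≤ ρ) (hl : 0 < l) (hl1 : l ≤ 1) {δ δ' ε η : ℝ}
    (hε : 0 ≤ ε) (hδ' : 0 < δ')
    (hw : ∀ z y, 0 ≤ w z y ∧ w z y ≤ 1) (hb : ∀ z y, 0 ≤ b z y ∧ b z y ≤ 1)
    (B : Finset (V × Y)) (hB : (B.card : ℝ) ≤ δ * (Fintype.card V * Fintype.card Y))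
    (h : ∀ z y, (z, y) ∉ B →
      |w z y - ((1 - l) * avg s (fun z' => w z' y) z + l * b z y)| ≤ ε)
    (hη : 2 * (δ' + ε) ≤ η * l) (hη0 : 0 < η) :
    ((univ.filter fun p : V × Y => η < |w p.1 p.2 - mean (fun z => b z p.2)|).card : ℝ) ≤
      (8 / (1 - ρ) ^ 2 * ((l ^ 2 + δ' + ε ^ 2) / η ^ 2) + δ / δ') *
        (Fintype.card V * Fintype.card Y) := by
  set N : ℝ := (Fintype.card V : ℝ) with hN
  have hN0 : 0 < N := by rw [hN]; exact_mod_cast Fintype.card_pos
  set C : ℝ := 8 / (1 - ρ) ^ 2 * ((l ^ 2 + δ' + ε ^ 2) / η ^ 2) with hC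
  have hC0 : 0 ≤ C := by
    rw [hC]
    have : 0 < 1 - ρ := by linarith
    positivity
  set Bf : Y → Finset V := fun y => univ.filter fun z => (z, y) ∈ B with hBf
  have hBsum : (B.card : ℝ) = ∑ y, ((Bf y).card : ℝ) := by
    have h1 : B.card = ∑ y, (Bf y).card := by
      have h2 : B.card = ∑ y, (B.filter fun p => p.2 = y).card :=
        Finset.card_eq_sum_card_fiberwise fun p _ => mem_coe.2 (mem_univ p.2)
      rw [h2]
      refine Finset.sum_congr rfl fun y _ => ?_
      refine Finset.card_bij' (fun p _ => p.1) (fun z _ => (z, y)) ?_ ?_ ?_ ?_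
      · intro p hp
        rw [hBf]
        simp only [mem_filter, mem_univ, true_and] at hp ⊢
        rw [← hp.2]
        exact hp.1
      · intro z hz
        rw [hBf] at hz
        simp only [mem_filter, mem_univ, true_and] at hz ⊢
        exact ⟨hz, trivial⟩
      · intro p hp
        simp only [mem_filter] at hp
        rw [← hp.2]
      · intro z _
        rfl
    exact_mod_cast h1
  have hfib : ∀ y, ((univ.filter fun z : V => η < |w z y - mean (fun z => b z y)|).card : ℝ) ≤
      C * N + ((Bf y).card : ℝ) / δ' := fun y => by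
    by_cases hy : ((Bf y).card : ℝ) ≤ δ' * N
    · have h1 := resolvent (w := fun z => w z y) (b := fun z => b z y) hs hρ hρ0 hl hl1 hε
        (fun z => hw z y) (fun z => hb z y) (Bf y) hy (fun z hz => h z y (by
          rw [hBf] at hz
          simpa using hz)) hη hη0
      have h2 : 0 ≤ ((Bf y).card : ℝ) / δ' := by positivity
      linarith
    · push Not at hy
      have h1 : ((univ.filter fun z : V => η < |w z y - mean (fun z => b z y)|).card : ℝ) ≤ N := by
        rw [hN]
        exact_mod_cast Finset.card_le_univ _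
      have h2 : N ≤ ((Bf y).card : ℝ) / δ' := by
        rw [le_div_iff₀ hδ']
        linarith
      have h3 : 0 ≤ C * N := by positivity
      linarith
  have hcard : ((univ.filter fun p : V × Y => η < |w p.1 p.2 - mean (fun z => b z p.2)|).card : ℝ) =
      ∑ y, ((univ.filter fun z : V => η < |w z y - mean (fun z => b z y)|).card : ℝ) := by
    have h1 : (univ.filter fun p : V × Y => η < |w p.1 p.2 - mean (fun z => b z p.2)|).card =
        ∑ y, (univ.filter fun z : V => η < |w z y - mean (fun z => b z y)|).card := by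
      rw [Finset.card_eq_sum_card_fiberwise (f := Prod.snd) (t := univ)
        fun p _ => mem_coe.2 (mem_univ p.2)]
      refine Finset.sum_congr rfl fun y _ => ?_
      refine Finset.card_bij' (fun p _ => p.1) (fun z _ => (z, y)) ?_ ?_ ?_ ?_
      · intro p hp
        simp only [mem_filter, mem_univ, true_and] at hp ⊢
        rw [← hp.2]
        exact hp.1
      · intro z hz
        simp only [mem_filter, mem_univ, true_and] at hz ⊢
        exact ⟨hz, trivial⟩
      · intro p hp
        simp only [mem_filter] at hp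
        rw [← hp.2]
      · intro z _
        rfl
    exact_mod_cast h1
  rw [hcard]
  calc _ ≤ ∑ y : Y, (C * N + ((Bf y).card : ℝ) / δ') := Finset.sum_le_sum fun y _ => hfib y
    _ = C * N * Fintype.card Y + (B.card : ℝ) / δ' := by
        rw [Finset.sum_add_distrib, Finset.sum_const, card_univ, nsmul_eq_mul, ← Finset.sum_div,
          ← hBsum]
        ring
    _ ≤ C * N * Fintype.card Y + δ * (N * Fintype.card Y) / δ' := by gcongr
    _ = _ := by ring

/-! ### The gap of a product -/

/-- Permutations of a product: one coordinate is moved. -/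
def prodPerm {W J : Type*} (s : J → V ≃ V) (t : J → W ≃ W) : J ⊕ J → (V × W ≃ V × W)
  | Sum.inl j => (s j).prodCongr (Equiv.refl W)
  | Sum.inr j => (Equiv.refl V).prodCongr (t j)

theorem abs_sum_mul_avg_le {J : Type*} [Fintype J] [Nonempty J] (s : J → V ≃ V) (f : V → ℝ) :
    |∑ z, f z * avg s f z| ≤ ∑ z, f z ^ 2 := by
  have hJ : (0 : ℝ) < Fintype.card J := by exact_mod_cast Fintype.card_pos
  have e : ∑ z, f z * avg s f z = (∑ j, ∑ z, f z * f (s j z)) / Fintype.card J := by
    unfold avg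
    rw [Finset.sum_comm, Finset.sum_div]
    refine Finset.sum_congr rfl fun z _ => ?_
    rw [← mul_div_assoc, Finset.mul_sum]
  rw [e, abs_div, abs_of_pos hJ, div_le_iff₀ hJ]
  have h1 : ∀ j, |∑ z, f z * f (s j z)| ≤ ∑ z, f z ^ 2 := fun j => by
    have h2 : ∑ z, f (s j z) ^ 2 = ∑ z, f z ^ 2 := Equiv.sum_comp (s j) fun z => f z ^ 2
    have h3 : ∀ z, |f z * f (s j z)| ≤ (f z ^ 2 + f (s j z) ^ 2) / 2 := fun z => by
      rw [abs_mul]
      nlinarith [sq_nonneg (|f z| - |f (s j z)|), sq_abs (f z), sq_abs (f (s j z))]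
    calc _ ≤ ∑ z, |f z * f (s j z)| := Finset.abs_sum_le_sum_abs _ _
      _ ≤ ∑ z, (f z ^ 2 + f (s j z) ^ 2) / 2 := Finset.sum_le_sum fun z _ => h3 z
      _ = ∑ z, f z ^ 2 := by
          rw [← Finset.sum_div, Finset.sum_add_distrib, h2]
          ring
  calc _ ≤ ∑ j, |∑ z, f z * f (s j z)| := Finset.abs_sum_le_sum_abs _ _
    _ ≤ ∑ _j : J, ∑ z, f z ^ 2 := Finset.sum_le_sum fun j _ => h1 j
    _ = _ := by rw [Finset.sum_const, card_univ, nsmul_eq_mul]; ring

theorem gap_prod {W J : Type*} [Fintype W] [Nonempty V] [Nonempty W] [Fintype J] [Nonempty J]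
    {s : J → V ≃ V} {t : J → W ≃ W} {ρ : ℝ} (hs : Gap s ρ) (ht : Gap t ρ) :
    Gap (prodPerm s t) ((1 + ρ) / 2) := by
  intro f hf
  have hN0 : (0 : ℝ) < Fintype.card V := by exact_mod_cast Fintype.card_pos
  set h : W → ℝ := fun y => mean fun z => f (z, y) with hh
  set g : W → V → ℝ := fun y z => f (z, y) - h y with hg
  have hg0 : ∀ y, ∑ z, g y z = 0 := fun y => sum_sub_mean fun z => f (z, y)
  have hfg : ∀ z y, f (z, y) = g y z + h y := fun z y => by rw [hg]; ring
  have hh0 : ∑ y, h y = 0 := by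
    have h1 : ∑ y, (Fintype.card V : ℝ) * h y = 0 := by
      calc ∑ y, (Fintype.card V : ℝ) * h y = ∑ y, ∑ z, f (z, y) :=
            Finset.sum_congr rfl fun y _ => card_mul_mean fun z => f (z, y)
        _ = ∑ p, f p := by rw [Fintype.sum_prod_type, Finset.sum_comm]
        _ = 0 := hf
    rw [← Finset.mul_sum] at h1
    exact (mul_eq_zero.1 h1).resolve_left hN0.ne'
  -- norms
  have hnorm : ∑ p, f p ^ 2 = (∑ y, ∑ z, g y z ^ 2) + Fintype.card V * ∑ y, h y ^ 2 := by
    rw [Fintype.sum_prod_type, Finset.sum_comm, Finset.mul_sum, ← Finset.sum_add_distrib]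
    refine Finset.sum_congr rfl fun y _ => ?_
    calc ∑ z, f (z, y) ^ 2 = ∑ z, (g y z ^ 2 + 2 * h y * g y z + h y ^ 2) :=
          Finset.sum_congr rfl fun z _ => by rw [hfg]; ring
      _ = _ := by
          rw [Finset.sum_add_distrib, Finset.sum_add_distrib, ← Finset.mul_sum, hg0,
            Finset.sum_const, card_univ, nsmul_eq_mul]
          ring
  -- the first operator
  have hA1 : ∑ p : V × W, f p * ((∑ j, f (s j p.1, p.2)) / Fintype.card J) =
      (∑ y, ∑ z, g y z * avg s (g y) z) + Fintype.card V * ∑ y, h y ^ 2 := by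
    rw [Fintype.sum_prod_type, Finset.sum_comm, Finset.mul_sum, ← Finset.sum_add_distrib]
    refine Finset.sum_congr rfl fun y _ => ?_
    have e1 : ∀ z, (∑ j, f (s j z, y)) / Fintype.card J = avg s (g y) z + h y := fun z => by
      have hJ : (Fintype.card J : ℝ) ≠ 0 := by exact_mod_cast Fintype.card_ne_zero
      unfold avg
      simp only [hfg, Finset.sum_add_distrib, Finset.sum_const, card_univ, nsmul_eq_mul]
      field_simp
    calc ∑ z, f (z, y) * ((∑ j, f (s j z, y)) / Fintype.card J)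
        = ∑ z, (g y z * avg s (g y) z + h y * g y z + h y * avg s (g y) z + h y ^ 2) :=
          Finset.sum_congr rfl fun z _ => by rw [e1, hfg]; ring
      _ = _ := by
          rw [Finset.sum_add_distrib, Finset.sum_add_distrib, Finset.sum_add_distrib,
            ← Finset.mul_sum, ← Finset.mul_sum, sum_avg, hg0, Finset.sum_const, card_univ,
            nsmul_eq_mul]
          ring
  -- the second operator
  have hA2 : ∑ p : V × W, f p * ((∑ j, f (p.1, t j p.2)) / Fintype.card J) =
      (∑ z, ∑ y, g y z * avg t (fun y => g y z) y) +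
        Fintype.card V * ∑ y, h y * avg t h y := by
    have e1 : ∀ z y, (∑ j, f (z, t j y)) / Fintype.card J =
        avg t (fun y => g y z) y + avg t h y := fun z y => by
      unfold avg
      rw [← add_div, ← Finset.sum_add_distrib]
      simp only [hfg]
    have e2 : ∀ y, ∑ z, avg t (fun y => g y z) y = 0 := fun y => by
      unfold avg
      rw [← Finset.sum_div, Finset.sum_comm]
      simp only [hg0, Finset.sum_const_zero, zero_div]
    calc ∑ p : V × W, f p * ((∑ j, f (p.1, t j p.2)) / Fintype.card J)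
        = ∑ z, ∑ y, (g y z * avg t (fun y => g y z) y + g y z * avg t h y +
            h y * avg t (fun y => g y z) y + h y * avg t h y) := by
          rw [Fintype.sum_prod_type]
          refine Finset.sum_congr rfl fun z _ => Finset.sum_congr rfl fun y _ => ?_
          rw [e1, hfg]
          ring
      _ = (∑ z, ∑ y, g y z * avg t (fun y => g y z) y) + (∑ z, ∑ y, g y z * avg t h y) +
            (∑ z, ∑ y, h y * avg t (fun y => g y z) y) + ∑ _z : V, ∑ y, h y * avg t h y := by
          simp only [Finset.sum_add_distrib]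
      _ = _ := by
          have e3 : ∑ z, ∑ y, g y z * avg t h y = 0 := by
            rw [Finset.sum_comm]
            refine Finset.sum_eq_zero fun y _ => ?_
            rw [← Finset.sum_mul, hg0, zero_mul]
          have e4 : ∑ z, ∑ y, h y * avg t (fun y => g y z) y = 0 := by
            rw [Finset.sum_comm]
            refine Finset.sum_eq_zero fun y _ => ?_
            rw [← Finset.mul_sum, e2, mul_zero]
          rw [e3, e4, Finset.sum_const, card_univ, nsmul_eq_mul]
          ring
  have hsplit : ∑ p, f p * avg (prodPerm s t) f p =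
      (1 / 2) * ((∑ p : V × W, f p * ((∑ j, f (s j p.1, p.2)) / Fintype.card J)) +
        ∑ p : V × W, f p * ((∑ j, f (p.1, t j p.2)) / Fintype.card J)) := by
    rw [← Finset.sum_add_distrib, Finset.mul_sum]
    refine Finset.sum_congr rfl fun p _ => ?_
    unfold avg
    rw [Fintype.sum_sum_type, Fintype.card_sum]
    have hJ : (Fintype.card J : ℝ) ≠ 0 := by exact_mod_cast Fintype.card_ne_zero
    simp only [prodPerm, Equiv.prodCongr_apply, Equiv.coe_refl, Prod.map, id]
    push_cast
    field_simp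
    ring
  have b1 : |∑ y, ∑ z, g y z * avg s (g y) z| ≤ ρ * ∑ y, ∑ z, g y z ^ 2 := by
    calc _ ≤ ∑ y, |∑ z, g y z * avg s (g y) z| := Finset.abs_sum_le_sum_abs _ _
      _ ≤ ∑ y, ρ * ∑ z, g y z ^ 2 := Finset.sum_le_sum fun y _ => hs _ (hg0 y)
      _ = _ := by rw [Finset.mul_sum]
  have b2 : |∑ z, ∑ y, g y z * avg t (fun y => g y z) y| ≤ ∑ y, ∑ z, g y z ^ 2 := by
    calc _ ≤ ∑ z, |∑ y, g y z * avg t (fun y => g y z) y| := Finset.abs_sum_le_sum_abs _ _
      _ ≤ ∑ z, ∑ y, g y z ^ 2 := Finset.sum_le_sum fun z _ => abs_sum_mul_avg_le t _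
      _ = _ := Finset.sum_comm
  have b3 : |∑ y, h y * avg t h y| ≤ ρ * ∑ y, h y ^ 2 := ht h hh0
  rw [hsplit, hA1, hA2, hnorm, abs_mul, abs_of_pos (by norm_num : (0 : ℝ) < 1 / 2)]
  set G : ℝ := ∑ y, ∑ z, g y z ^ 2
  set H : ℝ := ∑ y, h y ^ 2
  have hH0 : 0 ≤ H := Finset.sum_nonneg fun y _ => sq_nonneg _
  have c1 := abs_le.1 b1
  have c2 := abs_le.1 b2
  have c3 := abs_le.1 b3
  have hρ0 : 0 ≤ (Fintype.card V : ℝ) * H := by positivity
  have d3 : |(Fintype.card V : ℝ) * ∑ y, h y * avg t h y| ≤ ρ * (Fintype.card V * H) := by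
    rw [abs_mul, abs_of_pos hN0]
    calc _ ≤ (Fintype.card V : ℝ) * (ρ * H) := mul_le_mul_of_nonneg_left b3 hN0.le
      _ = _ := by ring
  have c4 := abs_le.1 d3
  have hfin : |(∑ y, ∑ z, g y z * avg s (g y) z) + (Fintype.card V : ℝ) * H +
      ((∑ z, ∑ y, g y z * avg t (fun y => g y z) y) +
        (Fintype.card V : ℝ) * ∑ y, h y * avg t h y)| ≤
      (1 + ρ) * (G + (Fintype.card V : ℝ) * H) := by
    rw [abs_le]
    constructor
    · nlinarith
    · nlinarith
  linarith

/-! ### The Margulis-Gabber-Galil permutations -/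

variable {n : ℕ} [NeZero n]

/-- the four permutations -/
def mg (n : ℕ) : Fin 4 → (ZMod n × ZMod n ≃ ZMod n × ZMod n) :=
  ![Lib.PCP.MGG.shear1 0, Lib.PCP.MGG.shear1 1, Lib.PCP.MGG.shear2 0, Lib.PCP.MGG.shear2 1]

theorem gap_mg : Gap (mg n) (73 / 80) := by
  intro f hf
  have h := Lib.PCP.MGG.mgg f hf
  have e : ∑ z, f z * avg (mg n) f z = (1 / 4) * ∑ z, f z *
      (f (Lib.PCP.MGG.shear1 0 z) + f (Lib.PCP.MGG.shear1 1 z) + f (Lib.PCP.MGG.shear2 0 z) +
        f (Lib.PCP.MGG.shear2 1 z)) := by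
    rw [Finset.mul_sum]
    refine Finset.sum_congr rfl fun z _ => ?_
    unfold avg
    rw [Fin.sum_univ_four, Fintype.card_fin]
    simp only [mg, Matrix.cons_val_zero, Matrix.cons_val_one, Matrix.cons_val]
    push_cast
    ring
  rw [e, abs_mul, abs_of_pos (by norm_num : (0 : ℝ) < 1 / 4)]
  linarith

end

end Vale.Agent.P330.H855
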