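import Vale.Agent.P330.H855.Asm
import Vale.Agent.P330.Op

/-!
Networks built from a fixed finite template, instantiated at every site `w < N`: the node number
`j` of the site `w` is `w * K + j`.
-/

namespace Vale.Agent.P330

open Vale.Agent.Lib.PolyTime

/-! ### Constructors of gates -/

section gates

variable {A : Set Word} {α : Type*} [Enc α]

theorem PT_gateOfData {f : α → Gate} {d : α → ℕ × ℚ × ℕ × ℕ × ℕ} (hd : PT A d)
    (h : ∀ a, (f a).data = d a) : PT A f := by
  obtain ⟨g, h1, h2⟩ := hd
  refine ⟨g, h1, fun a => ?_⟩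
  rw [h2, ← h]
  show _ = gateW (f a)
  cases f a <;> simp only [Gate.data, enc_pair, pr_eq_pairW, enc_rat, enc_nat, gateW]

variable {r : α → ℚ} {a b z : α → ℕ}

theorem PT_gConst (hr : PT A r) (hz : PT A z) : PT A (fun x => Gate.const (r x) (z x)) :=
  PT_gateOfData (d := fun x => (0, r x, 0, 0, z x))
    ((PT.const 0).pair (hr.pair ((PT.const 0).pair ((PT.const 0).pair hz)))) fun _ => rfl

theorem PT_gScale (hr : PT A r) (ha : PT A a) (hz : PT A z) :
    PT A (fun x => Gate.scale (r x) (a x) (z x)) :=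
  PT_gateOfData (d := fun x => (1, r x, a x, 0, z x))
    ((PT.const 1).pair (hr.pair (ha.pair ((PT.const 0).pair hz)))) fun _ => rfl

theorem PT_gCopy (ha : PT A a) (hz : PT A z) : PT A (fun x => Gate.copy (a x) (z x)) :=
  PT_gateOfData (d := fun x => (2, 0, a x, 0, z x))
    ((PT.const 2).pair ((PT.const 0).pair (ha.pair ((PT.const 0).pair hz)))) fun _ => rfl

theorem PT_gAdd (ha : PT A a) (hb : PT A b) (hz : PT A z) :
    PT A (fun x => Gate.add (a x) (b x) (z x)) :=
  PT_gateOfData (d := fun x => (3, 0, a x, b x, z x))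
    ((PT.const 3).pair ((PT.const 0).pair (ha.pair (hb.pair hz)))) fun _ => rfl

theorem PT_gSub (ha : PT A a) (hb : PT A b) (hz : PT A z) :
    PT A (fun x => Gate.sub (a x) (b x) (z x)) :=
  PT_gateOfData (d := fun x => (4, 0, a x, b x, z x))
    ((PT.const 4).pair ((PT.const 0).pair (ha.pair (hb.pair hz)))) fun _ => rfl

theorem PT_gLess (ha : PT A a) (hb : PT A b) (hz : PT A z) :
    PT A (fun x => Gate.less (a x) (b x) (z x)) :=
  PT_gateOfData (d := fun x => (5, 0, a x, b x, z x))
    ((PT.const 5).pair ((PT.const 0).pair (ha.pair (hb.pair hz)))) fun _ => rfl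

theorem PT_gNot (ha : PT A a) (hz : PT A z) : PT A (fun x => Gate.not (a x) (z x)) :=
  PT_gateOfData (d := fun x => (6, 0, a x, 0, z x))
    ((PT.const 6).pair ((PT.const 0).pair (ha.pair ((PT.const 0).pair hz)))) fun _ => rfl

theorem PT_gOr (ha : PT A a) (hb : PT A b) (hz : PT A z) :
    PT A (fun x => Gate.or (a x) (b x) (z x)) :=
  PT_gateOfData (d := fun x => (7, 0, a x, b x, z x))
    ((PT.const 7).pair ((PT.const 0).pair (ha.pair (hb.pair hz)))) fun _ => rfl

theorem PT_gAnd (ha : PT A a) (hb : PT A b) (hz : PT A z) :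
    PT A (fun x => Gate.and (a x) (b x) (z x)) :=
  PT_gateOfData (d := fun x => (8, 0, a x, b x, z x))
    ((PT.const 8).pair ((PT.const 0).pair (ha.pair (hb.pair hz)))) fun _ => rfl

/-- The gate of a fixed operation. -/
theorem PT_toGate {W : Type} {e : α → W → ℕ} (he : ∀ w, PT A (fun x => e x w)) (hz : PT A z)
    (o : Op W) : PT A (fun x => o.toGate (e x) (z x)) := by
  cases o with
  | const r => exact PT_gConst (PT.const r) hz
  | scale r a => exact PT_gScale (PT.const r) (he a) hz
  | copy a => exact PT_gCopy (he a) hz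
  | add a b => exact PT_gAdd (he a) (he b) hz
  | sub a b => exact PT_gSub (he a) (he b) hz
  | less a b => exact PT_gLess (he a) (he b) hz
  | not a => exact PT_gNot (he a) hz
  | or a b => exact PT_gOr (he a) (he b) hz
  | and a b => exact PT_gAnd (he a) (he b) hz

/-- A fixed finite list of functions. -/
theorem PT_mapConst {ι β : Type*} [Enc β] {f : ι → α → β} :
    ∀ l : List ι, (∀ i ∈ l, PT A (f i)) → PT A (fun x => l.map fun i => f i x)
  | [], _ => PT.const []
  | i :: l, h => PT.cons (h i (by simp)) (PT_mapConst l fun j hj => h j (by simp [hj]))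

end gates

/-! ### Templates -/

/-- A gate of the template: an operation which reads nodes of other sites, or a hard-wired bit. -/
inductive TG (Mv CB : Type) where
  | op (o : Op (Mv × ℕ))
  | bit (κ : CB)

variable {Mv CB : Type}

/-- The instance of a gate of the template. -/
def TG.gate (K : ℕ) (mv : Mv → ℕ) (cb : CB → Bool) (z : ℕ) : TG Mv CB → Gate
  | .op o => o.toGate (fun p => mv p.1 * K + p.2) z
  | .bit κ => .const (if cb κ then 1 else 0) z

@[simp] theorem TG.out_gate (K : ℕ) (mv : Mv → ℕ) (cb : CB → Bool) (z : ℕ) (g : TG Mv CB) :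
    (g.gate K mv cb z).out = z := by
  cases g with
  | op o => exact Op.out_toGate _ _ _
  | bit κ => rfl

/-- The gates of the site `w`. -/
def siteGates (T : List (TG Mv CB)) (mv : Mv → ℕ → ℕ) (cb : CB → ℕ → Bool) (w : ℕ) : List Gate :=
  T.zipIdx.map fun p =>
    p.1.gate T.length (fun m => mv m w) (fun κ => cb κ w) (w * T.length + p.2)

/-- All gates. -/
def allGates (T : List (TG Mv CB)) (N : ℕ) (mv : Mv → ℕ → ℕ) (cb : CB → ℕ → Bool) : List Gate :=
  (List.range N).flatMap (siteGates T mv cb)

/-- The template makes sense. -/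
structure WFT (T : List (TG Mv CB)) : Prop where
  ne : T ≠ []
  ins : ∀ o : Op (Mv × ℕ), TG.op o ∈ T → ∀ p ∈ o.ins, p.2 < T.length
  par : ∀ o : Op (Mv × ℕ), TG.op o ∈ T → ∀ α ∈ o.params, 0 ≤ α ∧ α ≤ 1

theorem mem_siteGates {T : List (TG Mv CB)} {mv : Mv → ℕ → ℕ} {cb : CB → ℕ → Bool} {w : ℕ}
    {g : Gate} : g ∈ siteGates T mv cb w ↔ ∃ (j : ℕ) (hj : j < T.length),
      g = T[j].gate T.length (fun m => mv m w) (fun κ => cb κ w) (w * T.length + j) := by
  unfold siteGates
  rw [List.mem_map]
  constructor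
  · rintro ⟨⟨t, j⟩, h, rfl⟩
    rw [List.mem_zipIdx_iff_getElem?] at h
    obtain ⟨hj, h2⟩ := List.getElem?_eq_some_iff.1 h
    exact ⟨j, hj, by rw [h2]⟩
  · rintro ⟨j, hj, rfl⟩
    exact ⟨(T[j], j), List.mem_zipIdx_iff_getElem?.2 (List.getElem?_eq_getElem hj), rfl⟩

theorem mem_allGates {T : List (TG Mv CB)} {N : ℕ} {mv : Mv → ℕ → ℕ} {cb : CB → ℕ → Bool}
    {g : Gate} : g ∈ allGates T N mv cb ↔ ∃ w < N, ∃ (j : ℕ) (hj : j < T.length),
      g = T[j].gate T.length (fun m => mv m w) (fun κ => cb κ w) (w * T.length + j) := by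
  unfold allGates
  rw [List.mem_flatMap]
  constructor
  · rintro ⟨w, hw, hg⟩
    exact ⟨w, List.mem_range.1 hw, mem_siteGates.1 hg⟩
  · rintro ⟨w, hw, hg⟩
    exact ⟨w, List.mem_range.2 hw, mem_siteGates.2 hg⟩

theorem map_out_siteGates (T : List (TG Mv CB)) (mv : Mv → ℕ → ℕ) (cb : CB → ℕ → Bool) (w : ℕ) :
    (siteGates T mv cb w).map Gate.out = (List.range T.length).map fun j => w * T.length + j := by
  unfold siteGates
  rw [List.map_map]
  have h : (Gate.out ∘ fun p : TG Mv CB × ℕ =>
      p.1.gate T.length (fun m => mv m w) (fun κ => cb κ w) (w * T.length + p.2)) =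
      (fun j => w * T.length + j) ∘ Prod.snd := by
    funext p
    simp
  rw [h, ← List.map_map, List.zipIdx_map_snd, List.range_eq_range']

theorem map_out_allGates (T : List (TG Mv CB)) (mv : Mv → ℕ → ℕ) (cb : CB → ℕ → Bool) (N : ℕ) :
    (allGates T N mv cb).map Gate.out = List.range (N * T.length) := by
  induction N with
  | zero => simp [allGates]
  | succ N ih =>
    unfold allGates at ih ⊢
    rw [List.range_succ, List.flatMap_append, List.map_append, ih, List.flatMap_singleton,
      map_out_siteGates, Nat.add_mul, one_mul, List.range_add]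

theorem length_allGates (T : List (TG Mv CB)) (N : ℕ) (mv : Mv → ℕ → ℕ) (cb : CB → ℕ → Bool) :
    (allGates T N mv cb).length = N * T.length := by
  have h := congrArg List.length (map_out_allGates T mv cb N)
  simpa using h

/-- The network makes sense. -/
theorem WFT.wfNet {T : List (TG Mv CB)} (hT : WFT T) {N : ℕ} (hN : 0 < N) {mv : Mv → ℕ → ℕ}
    {cb : CB → ℕ → Bool} (hmv : ∀ m, ∀ w < N, mv m w < N) :
    WFNet (N * T.length) (allGates T N mv cb) where
  gates_ne := by
    have h1 : 0 < T.length := List.length_pos_iff.2 hT.ne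
    rw [← List.length_pos_iff, length_allGates]
    positivity
  out_lt := by
    intro g hg
    have h1 : g.out ∈ (allGates T N mv cb).map Gate.out := List.mem_map_of_mem hg
    rw [map_out_allGates] at h1
    exact List.mem_range.1 h1
  ins_lt := by
    intro g hg a ha
    obtain ⟨w, hw, j, hj, rfl⟩ := mem_allGates.1 hg
    cases h : T[j] with
    | op o =>
      rw [h] at ha
      simp only [TG.gate, Op.ins_toGate, List.mem_map] at ha
      obtain ⟨p, hp, rfl⟩ := ha
      have h1 := hT.ins o (by rw [← h]; exact List.getElem_mem hj) p hp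
      have h2 := hmv p.1 w hw
      calc mv p.1 w * T.length + p.2 < mv p.1 w * T.length + T.length := by omega
        _ = (mv p.1 w + 1) * T.length := by ring
        _ ≤ N * T.length := Nat.mul_le_mul_right _ h2
    | bit κ =>
      rw [h] at ha
      simp [TG.gate, Gate.ins] at ha
  out_nodup := by
    rw [map_out_allGates]
    exact List.nodup_range
  params_mem := by
    intro g hg α hα
    obtain ⟨w, hw, j, hj, rfl⟩ := mem_allGates.1 hg
    cases h : T[j] with
    | op o =>
      rw [h] at hα
      simp only [TG.gate, Op.params_toGate] at hα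
      exact hT.par o (by rw [← h]; exact List.getElem_mem hj) α hα
    | bit κ =>
      rw [h] at hα
      simp only [TG.gate, Gate.params, List.mem_singleton] at hα
      subst hα
      split_ifs <;> norm_num

/-! ### Polynomial time -/

theorem PT_siteGates {A : Set Word} {α : Type*} [Enc α] (T : List (TG Mv CB))
    {mv : α → Mv → ℕ → ℕ} {cb : α → CB → ℕ → Bool} {w : α → ℕ}
    (hmv : ∀ m, PT A (fun a => mv a m (w a))) (hcb : ∀ κ, PT A (fun a => cb a κ (w a)))
    (hw : PT A w) : PT A (fun a => siteGates T (mv a) (cb a) (w a)) := by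
  unfold siteGates
  refine PT_mapConst (f := fun (p : TG Mv CB × ℕ) a =>
    p.1.gate T.length (fun m => mv a m (w a)) (fun κ => cb a κ (w a)) (w a * T.length + p.2)) _
    fun p _ => ?_
  have hz : PT A (fun a => w a * T.length + p.2) :=
    PT.add (PT.mul hw (PT.const _)) (PT.const _)
  cases p.1 with
  | op o =>
    exact PT_toGate (e := fun a q => mv a q.1 (w a) * T.length + q.2)
      (fun q => PT.add (PT.mul (hmv q.1) (PT.const _)) (PT.const _)) hz o
  | bit κ =>
    refine PT_gConst ?_ hz
    refine ((hcb κ).cond (PT.const (1 : ℚ)) (PT.const 0)).congr fun a => ?_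
    show (bif cb a κ (w a) then (1 : ℚ) else 0) = if cb a κ (w a) = true then 1 else 0
    cases cb a κ (w a) <;> rfl

/-- **The list of gates is computable in polynomial time.** -/
theorem PT_allGates {A : Set Word} {α : Type*} [Enc α] (T : List (TG Mv CB))
    {N : α → ℕ} (hN : PT A N) (hNb : PBd N)
    {mv : α → Mv → ℕ → ℕ} {cb : α → CB → ℕ → Bool}
    (hmv : ∀ m, PT A (fun p : α × ℕ => mv p.1 m p.2))
    (hcb : ∀ κ, PT A (fun p : α × ℕ => cb p.1 κ p.2)) :
    PT A (fun a => allGates T (N a) (mv a) (cb a)) := by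
  unfold allGates
  exact PT.flatMap (f := fun a w => siteGates T (mv a) (cb a) w) (PT.range hN hNb)
    (PT_siteGates T (mv := fun p : α × ℕ => mv p.1) (cb := fun p : α × ℕ => cb p.1) hmv hcb
      PT.snd')

end Vale.Agent.P330
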